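import Vale.Agent.P249.Defs
import Vale.Agent.P249.Main

open Filter Asymptotics Vale.Agent.P249

universe u

theorem Vale.Agent.Results.P249.A_subpoly.result (p : ℝ) (hp : 1 < p) :
    (∀ D : ℝ, 1 < D →
      (∃ C : ℝ, ∀ n : ℕ, 2 ≤ n → Embeds.{u} p n (dp.{u} p n D) D ∧
        (dp.{u} p n D : ℝ) ≤ Real.exp (C * Real.log n ^ max (1 / p) (1 / 2))) ∧
      ∀ δ : ℝ, 0 < δ →
        IsLittleO atTop (fun n : ℕ => (dp.{u} p n D : ℝ)) (fun n : ℕ => (n : ℝ) ^ δ)) ∧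
    (p ≠ 2 → ∀ n d : ℕ, Embeds.{u} p n d 1 → ((n - 1) / 4) ^ 2 ≤ d) :=
  main p hp
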